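import Vale.Agent.N043.Defs
import Vale.Agent.N043.Boxes

open MeasureTheory Vale.Agent.N043 in
/-- A finite union of nondegenerate closed axis-parallel rectangles tiles the plane by
translations and admits no periodic tiling. -/
theorem Vale.Agent.Results.P043.A0PeriodicTilingIff.result :
    ∃ T : Finset ((Fin 2 → ℝ) × (Fin 2 → ℝ)), T.Nonempty ∧ (∀ p ∈ T, ∀ i, p.1 i < p.2 i) ∧
      (∃ A : Set (Fin 2 → ℝ), Tiles (⋃ p ∈ T, Set.Icc p.1 p.2) A) ∧
      ∀ A : Set (Fin 2 → ℝ), Tiles (⋃ p ∈ T, Set.Icc p.1 p.2) A → ¬ PeriodicR A :=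
  boxes_two
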