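import Vale.Agent.N043U.St
import Vale.Agent.N043U.Main

open Vale.Agent.N043U.St in
/-- (1) It is decidable whether a finite subset of `ℤ^d` (given as a list) tiles `ℤ^d` exactly when
`d ≤ 2`; the same for tilings of `ℝ^d` by finite unions of unit lattice cubes.
(2) Not tiling, and having a periodic tiling, are recursively enumerable.
(3) For `d ≥ 3` every recursively enumerable set `p` has a computable sequence of finite subsets of
`ℤ^d` without periodic tilings whose `n`-th member tiles exactly when `n` is not in `p`. -/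
theorem Vale.Agent.Results.P043.A0Undecidable.result :
    (∀ d : ℕ,
      (ComputablePred fun F : List (Fin d → ℤ) => ∃ A, Tiling A {x | x ∈ F}) ↔ d ≤ 2) ∧
    (∀ d : ℕ,
      (ComputablePred fun F : List (Fin d → ℤ) => ∃ A, TilingR A (cubes F)) ↔ d ≤ 2) ∧
    (∀ d : ℕ,
      (REPred fun F : List (Fin d → ℤ) => ¬ ∃ A, Tiling A {x | x ∈ F}) ∧
      REPred fun F : List (Fin d → ℤ) => ∃ A, Tiling A {x | x ∈ F} ∧ Periodic A) ∧
    ∀ d : ℕ, 3 ≤ d → ∀ p : ℕ → Prop, REPred p →
      ∃ f : ℕ → List (Fin d → ℤ), Computable f ∧ ∀ n,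
        ((∃ A, Tiling A {x | x ∈ f n}) ↔ ¬ p n) ∧
        ∀ A, Tiling A {x | x ∈ f n} → ¬ Periodic A :=
  ⟨Vale.Agent.N043U.main_dec, Vale.Agent.N043U.main_cubes,
    Vale.Agent.N043U.main_re, Vale.Agent.N043U.main_hard⟩
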